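import Vale.Agent.P099.Right

/-!
P099: billiards in triangles with three irrational angles have no continuous eigenfunctions.
-/

open scoped ComplexConjugate RealInnerProductSpace
open Set

namespace Vale.Agent.Results.P099.ContinuousEigenfunctions

open Vale.Agent.P099

/-- A continuous eigenfunction of the billiard flow of a triangle with three irrational angles, or
of an irrational right triangle, is constant, and it is zero unless the eigenvalue is zero. -/
theorem result (P : Fin 3 → ℂ) (hP : AffineIndependent ℝ P)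
    (hangle : (∀ i : Fin 3,
        Irrational (EuclideanGeometry.angle (P (i + 1)) (P i) (P (i + 2)) / Real.pi)) ∨
      ∃ k : Fin 3, EuclideanGeometry.angle (P (k + 1)) (P k) (P (k + 2)) = Real.pi / 2 ∧
        Irrational (EuclideanGeometry.angle (P k) (P (k + 1)) (P (k + 2)) / Real.pi))
    (l : ℝ) (f : ℂ → ℂ → ℂ)
    (hcont : ContinuousOn (fun q : ℂ × ℂ => f q.1 q.2)
      (convexHull ℝ (range P) ×ˢ Metric.sphere (0 : ℂ) 1))
    (hflow : ∀ y u : ℂ, ∀ t : ℝ, ‖u‖ = 1 → 0 ≤ t → y ∈ interior (convexHull ℝ (range P)) →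
      y + t • u ∈ interior (convexHull ℝ (range P)) →
      f (y + t • u) u = Complex.exp ((l * t : ℝ) * Complex.I) * f y u)
    (hrefl : ∀ i : Fin 3, ∀ y ∈ openSegment ℝ (P i) (P (i + 1)), ∀ u : ℂ, ‖u‖ = 1 →
      f y ((P (i + 1) - P i) / conj (P (i + 1) - P i) * conj u) = f y u) :
    ∃ c : ℂ, (∀ y ∈ convexHull ℝ (range P), ∀ u : ℂ, ‖u‖ = 1 → f y u = c) ∧
      (l ≠ 0 → c = 0) := by
  have hshift : ∀ k : Fin 3, ∃ b : AffineBasis (Fin 3) ℝ ℂ, (∀ i, b i = P (k + i)) ∧
      convexHull ℝ (range P) = tri b ∧ Eig b f l := by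
    intro k
    have hind : AffineIndependent ℝ (fun i => P (k + i)) :=
      hP.comp_embedding (Equiv.addLeft k).toEmbedding
    have hspan : affineSpan ℝ (range fun i => P (k + i)) = ⊤ :=
      hind.affineSpan_eq_top_iff_card_eq_finrank_add_one.2 (by simp [Complex.finrank_real_complex])
    let b : AffineBasis (Fin 3) ℝ ℂ := ⟨fun i => P (k + i), hind, hspan⟩
    have hr : range b = range P := (Equiv.addLeft k).surjective.range_comp P
    have htri : convexHull ℝ (range P) = tri b := by
      rw [← hr, b.convexHull_eq_nonneg_coord]; rfl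
    have hint : interior (convexHull ℝ (range P)) = {y | ∀ i, 0 < b.coord i y} := by
      rw [← hr, b.interior_convexHull]
    refine ⟨b, fun i => rfl, htri, eig_of_open (htri ▸ hcont)
      (fun y u t hu ht hy hy' => hflow y u t hu ht (hint ▸ hy) (hint ▸ hy')) ?_⟩
    intro i u hu s hs
    have e2 : k + (i + 1) + 1 = k + (i + 2) := by rw [add_assoc, add_assoc]; rfl
    have h := hrefl (k + (i + 1)) (b (i + 1) + s • side b i) ?_ u hu
    · rw [e2] at h
      rw [rfl'_apply]
      exact h
    · rw [openSegment_eq_image', e2]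
      exact ⟨s, hs, rfl⟩
  rcases hangle with hirr | ⟨k, hk, hα⟩
  · obtain ⟨b, hb, htri, E⟩ := hshift 0
    rw [htri]
    refine E.const_all fun i => ?_
    simpa [hb] using hirr i
  · obtain ⟨b, hb, htri, E⟩ := hshift k
    rw [htri]
    have h0 : b 0 = P k := by rw [hb, add_zero]
    refine Eig.const_right ?_ E (by rw [h0, hb, hb]; exact hα)
    rw [h0, hb, hb]
    exact (InnerProductGeometry.inner_eq_zero_iff_angle_eq_pi_div_two _ _).2 hk

end Vale.Agent.Results.P099.ContinuousEigenfunctions
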